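import Vale.Agent.P247.H74.Sta

/-!
# P247, package A-EXT: basic facts on families of tori
-/

open scoped ContDiff Topology
open Set MeasureTheory Filter Metric

noncomputable section

namespace Vale.Agent.P247.H690

open Vale.Agent.P247.H74

variable {D : Data}

/-! ## The modulus is determined by the map -/

lemma J_indep (D : Data) (x a : R4) (ha : a ≠ 0) (r s : ℝ) (h : r • a + s • D.J x a = 0) :
    r = 0 ∧ s = 0 := by
  have h1 : r • D.J x a - s • a = 0 := by
    have := congrArg (D.J x) h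
    simp only [map_add, map_smul, D.J_sq, map_zero, smul_neg] at this
    rw [sub_eq_add_neg]
    exact this
  have h2 : (r ^ 2 + s ^ 2) • a = 0 := by
    have e1 : (r ^ 2 + s ^ 2) • a = r • (r • a + s • D.J x a) - s • (r • D.J x a - s • a) := by
      module
    rw [e1, h, h1, smul_zero, smul_zero, sub_zero]
  have h3 : r ^ 2 + s ^ 2 = 0 := by
    rcases smul_eq_zero.1 h2 with h3 | h3
    · exact h3
    · exact absurd h3 ha
  constructor <;> nlinarith [sq_nonneg r, sq_nonneg s]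

lemma modulus_unique {f : P2 → R4} {τ τ' : ℂ} (h : JT D f τ) (h' : JT D f τ') (hi : Imm f) :
    τ = τ' := by
  have e1 := h.eq 0
  have e2 := h'.eq 0
  have e3 : (τ.re - τ'.re) • ds (phi f) 0 + (τ.im - τ'.im) • D.J (phi f 0) (ds (phi f) 0) = 0 := by
    have : (τ.re - τ'.re) • ds (phi f) 0 + (τ.im - τ'.im) • D.J (phi f 0) (ds (phi f) 0)
        = (τ.re • ds (phi f) 0 + τ.im • D.J (phi f 0) (ds (phi f) 0))
          - (τ'.re • ds (phi f) 0 + τ'.im • D.J (phi f 0) (ds (phi f) 0)) := by module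
    rw [this, ← e1, ← e2, sub_self]
  obtain ⟨h1, h2⟩ := J_indep D _ _ (hi 0) _ _ e3
  exact Complex.ext (by linarith) (by linarith)

/-! ## `C^∞` convergence -/

lemma TendSmooth.tendsto_fun {fn : ℕ → P2 → R4} {f : P2 → R4} (h : TendSmooth fn f) :
    TendstoUniformly fn f atTop := by
  have h0 := h 0
  rw [Metric.tendstoUniformly_iff] at h0 ⊢
  intro ε hε
  filter_upwards [h0 ε hε] with n hn p
  have := hn p
  rw [dist_eq_norm] at this ⊢
  have e1 : iteratedFDeriv ℝ 0 f p - iteratedFDeriv ℝ 0 (fn n) p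
      = (continuousMultilinearCurryFin0 ℝ P2 R4).symm (f p - fn n p) := by
    rw [iteratedFDeriv_zero_eq_comp, iteratedFDeriv_zero_eq_comp]
    simp only [Function.comp_apply, map_sub]
  rw [e1, LinearIsometryEquiv.norm_map] at this
  exact this

lemma norm_fderiv_sub_le (f g : P2 → R4) (p : P2) :
    ‖fderiv ℝ f p - fderiv ℝ g p‖ ≤ ‖iteratedFDeriv ℝ 1 f p - iteratedFDeriv ℝ 1 g p‖ := by
  refine ContinuousLinearMap.opNorm_le_bound _ (norm_nonneg _) fun v => ?_
  have e1 : (fderiv ℝ f p - fderiv ℝ g p) v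
      = (iteratedFDeriv ℝ 1 f p - iteratedFDeriv ℝ 1 g p) (fun _ => v) := by
    have e2 : (iteratedFDeriv ℝ 1 f p - iteratedFDeriv ℝ 1 g p) (fun _ => v)
        = iteratedFDeriv ℝ 1 f p (fun _ => v) - iteratedFDeriv ℝ 1 g p (fun _ => v) := rfl
    rw [e2, iteratedFDeriv_one_apply, iteratedFDeriv_one_apply]
    rfl
  rw [e1]
  refine (ContinuousMultilinearMap.le_opNorm _ _).trans ?_
  simp

lemma TendSmooth.tendsto_fderiv {fn : ℕ → P2 → R4} {f : P2 → R4} (h : TendSmooth fn f) :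
    TendstoUniformly (fun n => fderiv ℝ (fn n)) (fderiv ℝ f) atTop := by
  have h0 := h 1
  rw [Metric.tendstoUniformly_iff] at h0 ⊢
  intro ε hε
  filter_upwards [h0 ε hε] with n hn p
  have := hn p
  rw [dist_eq_norm] at this ⊢
  exact (norm_fderiv_sub_le _ _ _).trans_lt this

lemma TendSmooth.tendC1 {fn : ℕ → P2 → R4} {f : P2 → R4} (h : TendSmooth fn f) : TendC1 fn f :=
  ⟨(TendSmooth.tendsto_fun h).tendstoLocallyUniformly,
    (TendSmooth.tendsto_fderiv h).tendstoLocallyUniformly⟩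

lemma TendSmooth.comp {fn : ℕ → P2 → R4} {f : P2 → R4} (h : TendSmooth fn f) {k : ℕ → ℕ}
    (hk : Tendsto k atTop atTop) : TendSmooth (fun n => fn (k n)) f := by
  intro j
  have := h j
  rw [Metric.tendstoUniformly_iff] at this ⊢
  intro ε hε
  exact hk.eventually (this ε hε)

/-! ## Periodic functions -/

lemma exists_fund (p : P2) : ∃ q ∈ Icc (0 : P2) 1, ∃ m n : ℤ, p = (q.1 + m, q.2 + n) := by
  refine ⟨(Int.fract p.1, Int.fract p.2), ⟨⟨Int.fract_nonneg _, Int.fract_nonneg _⟩,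
    ⟨(Int.fract_lt_one _).le, (Int.fract_lt_one _).le⟩⟩, ⌊p.1⌋, ⌊p.2⌋, ?_⟩
  ext
  · simp only [Int.fract_add_floor]
  · simp only [Int.fract_add_floor]

lemma per_iteratedFDeriv {E : Type*} [NormedAddCommGroup E] [NormedSpace ℝ E] {f : P2 → E}
    (h : Per f) (k : ℕ) : Per (iteratedFDeriv ℝ k f) := by
  intro m n p
  have e1 : (fun z : P2 => f (z + ((m : ℝ), (n : ℝ)))) = f := by
    funext z
    exact h m n z
  have e2 := iteratedFDeriv_comp_add_right (𝕜 := ℝ) (f := f) k ((m : ℝ), (n : ℝ)) p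
  rw [e1] at e2
  exact e2.symm

lemma per_fderiv {E : Type*} [NormedAddCommGroup E] [NormedSpace ℝ E] {f : P2 → E}
    (h : Per f) : Per (fderiv ℝ f) := by
  intro m n p
  have e1 : (fun z : P2 => f (z + ((m : ℝ), (n : ℝ)))) = f := by
    funext z
    exact h m n z
  have e2 := fderiv_comp_add_right (𝕜 := ℝ) (f := f) (x := p) ((m : ℝ), (n : ℝ))
  rw [e1] at e2
  exact e2.symm

/-! ## Families: partial derivatives are jointly continuous -/

lemma partial_iterated {E : Type*} [NormedAddCommGroup E] [NormedSpace ℝ E] {U : Set P2}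
    (hU : IsOpen U) {G : P2 × P2 → E} (hG : ContDiffOn ℝ ∞ G (U ×ˢ univ)) (k : ℕ) {y : P2}
    (hy : y ∈ U) (p : P2) :
    iteratedFDeriv ℝ k (fun p => G (y, p)) p = (iteratedFDeriv ℝ k G (y, p)).compContinuousLinearMap
      (fun _ => ContinuousLinearMap.inr ℝ P2 P2) := by
  set H : P2 × P2 → E := fun q => G (q + (y, 0)) with hH
  set V : Set (P2 × P2) := (fun q => q + (y, 0)) ⁻¹' (U ×ˢ univ) with hV
  have hVo : IsOpen V := (hU.prod isOpen_univ).preimage (by fun_prop)
  have hHV : ContDiffOn ℝ ∞ H V := hG.comp (by fun_prop) (fun q hq => hq)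
  have hpre : (ContinuousLinearMap.inr ℝ P2 P2) ⁻¹' V = univ := by
    ext q
    simp [hV, hy]
  have hmem : (ContinuousLinearMap.inr ℝ P2 P2) p ∈ V := by
    have : p ∈ (ContinuousLinearMap.inr ℝ P2 P2) ⁻¹' V := by rw [hpre]; trivial
    exact this
  have h1 := ContinuousLinearMap.iteratedFDerivWithin_comp_right (ContinuousLinearMap.inr ℝ P2 P2)
    hHV hVo.uniqueDiffOn (by rw [hpre]; exact uniqueDiffOn_univ) hmem (i := k)
    (by exact_mod_cast le_top)
  rw [hpre, iteratedFDerivWithin_univ, iteratedFDerivWithin_of_isOpen k hVo hmem] at h1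
  have h2 : (fun p => G (y, p)) = H ∘ (ContinuousLinearMap.inr ℝ P2 P2) := by
    funext q
    simp [hH]
  have h3 : iteratedFDeriv ℝ k H ((ContinuousLinearMap.inr ℝ P2 P2) p)
      = iteratedFDeriv ℝ k G (y, p) := by
    rw [hH, iteratedFDeriv_comp_add_right]
    simp
  rw [h2, h1, h3]

lemma continuousOn_partial {E : Type*} [NormedAddCommGroup E] [NormedSpace ℝ E] {U : Set P2}
    (hU : IsOpen U) {F : P2 → P2 → E} (hG : ContDiffOn ℝ ∞ (fun q : P2 × P2 => F q.1 q.2) (U ×ˢ univ))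
    (k : ℕ) :
    ContinuousOn (Function.uncurry fun y p => iteratedFDeriv ℝ k (F y) p) (U ×ˢ (univ : Set P2)) := by
  have hUo : IsOpen (U ×ˢ (univ : Set P2)) := hU.prod isOpen_univ
  have h1 : ContinuousOn (iteratedFDeriv ℝ k (fun q : P2 × P2 => F q.1 q.2)) (U ×ˢ univ) := by
    have := hG.continuousOn_iteratedFDerivWithin (m := k) (by exact_mod_cast le_top)
      hUo.uniqueDiffOn
    refine this.congr fun q hq => ?_
    rw [iteratedFDerivWithin_of_isOpen k hUo hq]
  have h2 : ContinuousOn (fun q => (iteratedFDeriv ℝ k (fun q : P2 × P2 => F q.1 q.2)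
      q).compContinuousLinearMap (fun _ => ContinuousLinearMap.inr ℝ P2 P2)) (U ×ˢ univ) := by
    have := (ContinuousMultilinearMap.compContinuousLinearMapL (𝕜 := ℝ) (F := E)
      (fun _ : Fin k => ContinuousLinearMap.inr ℝ P2 P2)).continuous.comp_continuousOn h1
    exact this
  refine h2.congr fun q hq => ?_
  obtain ⟨y, p⟩ := q
  exact partial_iterated hU hG k hq.1 p

lemma tendSmooth_of_contDiffOn {U : Set P2} (hU : IsOpen U) {F : P2 → P2 → R4}
    (hG : ContDiffOn ℝ ∞ (fun q : P2 × P2 => F q.1 q.2) (U ×ˢ univ))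
    (hper : ∀ y ∈ U, Per (F y)) {y : P2} (hy : y ∈ U) {yn : ℕ → P2}
    (hyn : Tendsto yn atTop (𝓝 y)) : TendSmooth (fun n => F (yn n)) (F y) := by
  intro k
  rw [Metric.tendstoUniformly_iff]
  intro ε hε
  obtain ⟨v, hv, hv2⟩ := IsCompact.mem_uniformity_of_prod (isCompact_Icc (a := (0 : P2)) (b := 1))
    ((continuousOn_partial hU hG k).mono (prod_mono_right (subset_univ _))) hy
    (Metric.dist_mem_uniformity hε)
  rw [hU.nhdsWithin_eq hy] at hv
  filter_upwards [hyn (inter_mem hv (hU.mem_nhds hy))] with n hn p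
  obtain ⟨q, hq, m, l, rfl⟩ := exists_fund p
  rw [per_iteratedFDeriv (hper y hy) k m l q, per_iteratedFDeriv (hper (yn n) hn.2) k m l q]
  have := hv2 (yn n) hn.1 q hq
  rw [dist_comm]
  exact this

lemma Fam.tendSmooth {U : Set P2} (hU : IsOpen U) {F : P2 → P2 → R4} {T : P2 → ℂ}
    (h : Fam D U F T) {y : P2} (hy : y ∈ U) {yn : ℕ → P2} (hyn : Tendsto yn atTop (𝓝 y)) :
    TendSmooth (fun n => F (yn n)) (F y) :=
  tendSmooth_of_contDiffOn hU h.smooth (fun y hy => (h.jt y hy).per) hy hyn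

end Vale.Agent.P247.H690
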