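import Vale.Agent.P247.H690.AEXT.Uni

/-!
# P247, package A-EXT: extension of families and the global family
-/

open scoped ContDiff Topology
open Set MeasureTheory Filter Metric

noncomputable section

namespace Vale.Agent.P247.H690

open Vale.Agent.P247.H74

variable {D : Data}

lemma ball_meets {y₀ y₁ : P2} {R δ : ℝ} (hR : 0 < R) (hy : dist y₁ y₀ ≤ R) (hδ : 0 < δ) :
    (ball y₀ R ∩ ball y₁ δ).Nonempty := by
  have h1 : y₁ ∈ closure (ball y₀ R) := by
    rw [closure_ball y₀ hR.ne']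
    exact hy
  obtain ⟨z, hz, hz2⟩ := Metric.mem_closure_iff.1 h1 δ hδ
  exact ⟨z, hz, by rw [mem_ball, dist_comm]; exact hz2⟩

/-- at a boundary point of the ball: a local family which extends the given one -/
lemma ext_point (hK2 : K2_statement) (hK3 : K3_statement) (hK4 : K4_statement)
    (hDP : DPsi_statement) {y₀ : P2} {R : ℝ} {F : P2 → P2 → R4} {T : P2 → ℂ} (hR : 0 < R)
    (h : Fam D (ball y₀ R) F T) (hinj : InjOn (tot F) (ball y₀ R ×ˢ univ)) {y₁ : P2}
    (hy₁ : y₁ ∈ sphere y₀ R) :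
    ∃ ε > 0, ∃ (F₁ : P2 → P2 → R4) (T₁ : P2 → ℂ), Fam D (ball y₁ ε) F₁ T₁ ∧
      ∀ y ∈ ball y₀ R ∩ ball y₁ ε, F y = F₁ y ∧ T y = T₁ y := by
  have hy₁' : dist y₁ y₀ = R := hy₁
  -- a sequence converging to the boundary point
  have hc : y₁ ∈ closure (ball y₀ R) := by
    rw [closure_ball y₀ hR.ne']
    exact hy₁'.le
  obtain ⟨yn, hyn, hlim⟩ := mem_closure_iff_seq_limit.1 hc
  have hb : ∃ C, ∀ n, ‖flux D (F (yn n))‖ ≤ C := by
    obtain ⟨C, hC⟩ := (hlim.norm).bddAbove_range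
    refine ⟨C, fun n => ?_⟩
    rw [h.flux_eq _ (hyn n)]
    exact hC ⟨n, rfl⟩
  obtain ⟨f, τ, k, hk, hJ, hC, hS, hτ⟩ := hK2 D (fun n => F (yn n)) (fun n => T (yn n))
    (fun n => h.jt _ (hyn n)) (fun n => h.cen _ (hyn n)) hb
  have hlim2 : Tendsto (fun n => yn (k n)) atTop (𝓝 y₁) := hlim.comp hk.tendsto_atTop
  -- its flux
  have hflux : flux D f = y₁ := by
    have t1 := flux_tendsto (D := D) hJ.smooth (fun n => (h.jt _ (hyn (k n))).smooth) hS
    have e1 : (fun n => flux D (F (yn (k n)))) = fun n => yn (k n) := by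
      funext n
      exact h.flux_eq _ (hyn (k n))
    rw [e1] at t1
    exact tendsto_nhds_unique t1 hlim2
  -- the limit torus is disjoint from all tori of the family
  have hdis : ∀ y ∈ ball y₀ R, ∀ p q, phi (F y) p ≠ phi f q := by
    intro y hy p q he
    have hmap := tot_map_nhds hDP isOpen_ball h hy p
    set ρ : ℝ := (R - dist y y₀) / 2 with hρ
    have hρ0 : 0 < ρ := by
      have : dist y y₀ < R := hy
      rw [hρ]; linarith
    have hW : tot F '' (ball y ρ ×ˢ univ) ∈ 𝓝 (tot F (y, p)) := by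
      rw [← hmap]
      refine image_mem_map ((isOpen_ball.prod isOpen_univ).mem_nhds ⟨mem_ball_self hρ0, trivial⟩)
    have t1 : Tendsto (fun n => phi (F (yn (k n))) q) atTop (𝓝 (tot F (y, p))) := by
      have : tot F (y, p) = phi f q := he
      rw [this]
      exact tendsto_const_nhds.add ((TendSmooth.tendsto_fun hS).tendsto_at q)
    have t2 : ∀ᶠ n in atTop, dist (yn (k n)) y₁ < ρ := by
      have := (Metric.tendsto_nhds.1 hlim2) ρ hρ0
      exact this
    obtain ⟨n, hn1, hn2⟩ := ((t1.eventually_mem hW).and t2).exists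
    obtain ⟨⟨y', p'⟩, hy', he'⟩ := hn1
    have hy'R : y' ∈ ball y₀ R := by
      have h1 : dist y' y < ρ := hy'.1
      have h2 := dist_triangle y' y y₀
      rw [mem_ball]
      have : dist y y₀ < R := hy
      rw [hρ] at h1; linarith
    have heq := hinj (show (y', p') ∈ ball y₀ R ×ˢ (univ : Set P2) from ⟨hy'R, trivial⟩)
      (show (yn (k n), q) ∈ ball y₀ R ×ˢ (univ : Set P2) from ⟨hyn (k n), trivial⟩) he'
    have hy'' : y' = yn (k n) := congrArg Prod.fst heq
    have h1 : dist (yn (k n)) y < ρ := by rw [← hy'']; exact hy'.1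
    have h3 : dist y₁ y₀ ≤ dist y₁ (yn (k n)) + dist (yn (k n)) y + dist y y₀ :=
      dist_triangle4 _ _ _ _
    rw [dist_comm y₁ (yn (k n)), hy₁'] at h3
    have : R = 2 * ρ + dist y y₀ := by rw [hρ]; ring
    linarith
  -- the limit torus is embedded
  obtain ⟨hImm, -⟩ := hK4 D (fun n => F (yn (k n))) (fun n => T (yn (k n))) f τ
    (fun n => h.jt _ (hyn (k n))) hJ (TendSmooth.tendC1 hS) hτ
    (fun n p q hpq => by
      have := hinj (show (yn (k n), p) ∈ ball y₀ R ×ˢ (univ : Set P2) from ⟨hyn (k n), trivial⟩)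
        (show (yn (k n), q) ∈ ball y₀ R ×ˢ (univ : Set P2) from ⟨hyn (k n), trivial⟩) hpq
      exact congrArg Prod.snd this)
    (fun n p q => hdis _ (hyn (k n)) p q)
  obtain ⟨ε, hε, F₁, T₁, hF₁, -, -, hseq⟩ := hK3 D f τ hJ hC hImm
  rw [hflux] at hF₁ hseq
  refine ⟨ε, hε, F₁, T₁, hF₁, ?_⟩
  have hev := hseq (fun n => F (yn (k n))) (fun n => T (yn (k n))) (fun n => h.jt _ (hyn (k n)))
    (fun n => h.cen _ (hyn (k n))) hS hτ
  obtain ⟨n, hn1, hn2, -⟩ := hev.exists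
  rw [h.flux_eq _ (hyn (k n))] at hn1 hn2
  exact UNI hK3 D (ball y₀ R ∩ ball y₁ ε) F F₁ T T₁ (isOpen_ball.inter isOpen_ball)
    ((convex_ball _ _).inter (convex_ball _ _)).isPreconnected (Fam.mono h inter_subset_left)
    (Fam.mono hF₁ inter_subset_right) ⟨yn (k n), ⟨hyn (k n), hn1⟩, hn2⟩

theorem EXT (hK2 : K2_statement) (hK3 : K3_statement) (hK4 : K4_statement)
    (hDP : DPsi_statement) : EXT_statement := by
  intro D y₀ R F T hR h hinj
  choose! ε hε F₁ T₁ hF₁ hag using fun y₁ (hy₁ : y₁ ∈ sphere y₀ R) =>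
    ext_point hK2 hK3 hK4 hDP hR h hinj hy₁
  -- the index set: `none` for the ball, `some y₁` for boundary points
  let Us : Option (sphere y₀ R) → Set P2 := fun o => match o with
    | none => ball y₀ R
    | some y₁ => ball (y₁ : P2) (ε y₁ / 3)
  let Fs : Option (sphere y₀ R) → P2 → P2 → R4 := fun o => match o with
    | none => F
    | some y₁ => F₁ y₁
  let Ts : Option (sphere y₀ R) → P2 → ℂ := fun o => match o with
    | none => T
    | some y₁ => T₁ y₁
  have hUs : ∀ i, IsOpen (Us i) := by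
    rintro (_ | y₁) <;> exact isOpen_ball
  have hsub3 : ∀ y₁ ∈ sphere y₀ R, ball y₁ (ε y₁ / 3) ⊆ ball y₁ (ε y₁) := fun y₁ hy₁ =>
    ball_subset_ball (by have := hε y₁ hy₁; linarith)
  have hFs : ∀ i, Fam D (Us i) (Fs i) (Ts i) := by
    rintro (_ | y₁)
    · exact h
    · exact Fam.mono (hF₁ y₁ y₁.2) (hsub3 y₁ y₁.2)
  -- agreement between two boundary charts
  have hag2 : ∀ a ∈ sphere y₀ R, ∀ b ∈ sphere y₀ R, ε b ≤ ε a → ∀ y, y ∈ ball a (ε a / 3) →
      y ∈ ball b (ε b / 3) → F₁ a y = F₁ b y ∧ T₁ a y = T₁ b y := by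
    intro a ha b hb hab y hya hyb
    have hba : dist b a < ε a := by
      have h1 : dist y a < ε a / 3 := hya
      have h2 : dist y b < ε b / 3 := hyb
      have h3 := dist_triangle b y a
      rw [dist_comm b y] at h3
      have := hε a ha
      linarith
    obtain ⟨z, hz1, hz2⟩ := ball_meets (y₀ := y₀) (y₁ := b) (R := R)
      (δ := min (ε b) (ε a - dist b a)) hR (le_of_eq hb) (lt_min (hε b hb) (by linarith))
    have hz3 : z ∈ ball b (ε b) := ball_subset_ball (min_le_left _ _) hz2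
    have hz4 : z ∈ ball a (ε a) := by
      have h1 : dist z b < ε a - dist b a := lt_of_lt_of_le hz2 (min_le_right _ _)
      have h2 := dist_triangle z b a
      rw [mem_ball]; linarith
    exact UNI hK3 D (ball a (ε a) ∩ ball b (ε b)) (F₁ a) (F₁ b) (T₁ a) (T₁ b)
      (isOpen_ball.inter isOpen_ball)
      ((convex_ball _ _).inter (convex_ball _ _)).isPreconnected
      (Fam.mono (hF₁ a ha) inter_subset_left) (Fam.mono (hF₁ b hb) inter_subset_right)
      ⟨z, ⟨hz4, hz3⟩, ((hag a ha z ⟨hz1, hz4⟩).1).symm.trans (hag b hb z ⟨hz1, hz3⟩).1⟩ y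
      ⟨hsub3 a ha hya, hsub3 b hb hyb⟩
  have hagA : ∀ i j y, y ∈ Us i → y ∈ Us j → Fs i y = Fs j y ∧ Ts i y = Ts j y := by
    rintro (_ | a) (_ | b) y hi hj
    · exact ⟨rfl, rfl⟩
    · exact hag b b.2 y ⟨hi, hsub3 b b.2 hj⟩
    · have := hag a a.2 y ⟨hj, hsub3 a a.2 hi⟩
      exact ⟨this.1.symm, this.2.symm⟩
    · rcases le_total (ε b) (ε a) with hab | hab
      · exact hag2 a a.2 b b.2 hab y hi hj
      · have := hag2 b b.2 a a.2 hab y hj hi
        exact ⟨this.1.symm, this.2.symm⟩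
  obtain ⟨F', T', hF', hF'2⟩ := Fam.glue (D := D) Us hUs Fs Ts hFs hagA
  -- the union contains a larger ball
  have hUo : IsOpen (⋃ i, Us i) := isOpen_iUnion hUs
  have hsub : closedBall y₀ R ⊆ ⋃ i, Us i := by
    intro y hy
    rcases (mem_closedBall.1 hy).lt_or_eq with h1 | h1
    · exact mem_iUnion.2 ⟨none, h1⟩
    · exact mem_iUnion.2 ⟨some ⟨y, h1⟩, mem_ball_self (by have := hε y h1; linarith)⟩
  obtain ⟨δ, hδ, hδ2⟩ := (isCompact_closedBall y₀ R).exists_thickening_subset_open hUo hsub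
  rw [thickening_closedBall hδ hR.le] at hδ2
  refine ⟨R + δ, by linarith, F', T', Fam.mono hF' (by rwa [add_comm]), fun y hy => ?_⟩
  exact hF'2 none y hy

/-- the global family -/
theorem GF (hK3 : K3_statement) (hE : EXT_statement) (hI0 : INJ0_statement)
    (hI1 : INJ1_statement) : GF_statement := by
  intro D f₀ τ₀ hJ hC hImm hInj
  set y₀ := flux D f₀ with hy₀
  -- the good radii
  let Good : ℝ → Prop := fun R => 0 < R ∧ ∃ (F : P2 → P2 → R4) (T : P2 → ℂ),
    Fam D (ball y₀ R) F T ∧ InjOn (tot F) (ball y₀ R ×ˢ univ) ∧ F y₀ = f₀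
  have hne : ∃ R, Good R := by
    obtain ⟨ε, hε, F, T, hF, hF0, -, -⟩ := hK3 D f₀ τ₀ hJ hC hImm
    obtain ⟨r, hr, hrε, hinj⟩ := hI0 D y₀ ε F T hε hF (by rw [hF0]; exact hInj)
    exact ⟨r, hr, F, T, Fam.mono hF (ball_subset_ball hrε), hinj, hF0⟩
  -- gluing good radii
  have glueGood : ∀ (ι : Type) (Rs : ι → ℝ), (∀ i, Good (Rs i)) →
      ∃ (F : P2 → P2 → R4) (T : P2 → ℂ), Fam D (⋃ i, ball y₀ (Rs i)) F T ∧
        InjOn (tot F) ((⋃ i, ball y₀ (Rs i)) ×ˢ univ) ∧ (Nonempty ι → F y₀ = f₀) := by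
    intro ι Rs hRs
    choose hpos Fs Ts hFs hinjs hF0s using hRs
    have hag : ∀ i j y, y ∈ ball y₀ (Rs i) → y ∈ ball y₀ (Rs j) →
        Fs i y = Fs j y ∧ Ts i y = Ts j y := by
      intro i j y hi hj
      exact UNI hK3 D (ball y₀ (Rs i) ∩ ball y₀ (Rs j)) (Fs i) (Fs j) (Ts i) (Ts j)
        (isOpen_ball.inter isOpen_ball)
        ((convex_ball _ _).inter (convex_ball _ _)).isPreconnected
        (Fam.mono (hFs i) inter_subset_left) (Fam.mono (hFs j) inter_subset_right)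
        ⟨y₀, ⟨mem_ball_self (hpos i), mem_ball_self (hpos j)⟩, (hF0s i).trans (hF0s j).symm⟩ y
        ⟨hi, hj⟩
    obtain ⟨F, T, hF, hF2⟩ := Fam.glue (D := D) (fun i => ball y₀ (Rs i)) (fun i => isOpen_ball)
      Fs Ts hFs hag
    refine ⟨F, T, hF, ?_, ?_⟩
    · rintro ⟨y, p⟩ hy ⟨y', p'⟩ hy' he
      obtain ⟨i, hi⟩ := mem_iUnion.1 hy.1
      obtain ⟨j, hj⟩ := mem_iUnion.1 hy'.1
      -- one of the two balls contains both points
      obtain ⟨l, hl1, hl2⟩ : ∃ l, y ∈ ball y₀ (Rs l) ∧ y' ∈ ball y₀ (Rs l) := by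
        rcases le_total (Rs i) (Rs j) with hij | hij
        · exact ⟨j, ball_subset_ball hij hi, hj⟩
        · exact ⟨i, hi, ball_subset_ball hij hj⟩
      refine hinjs l (show (y, p) ∈ ball y₀ (Rs l) ×ˢ (univ : Set P2) from ⟨hl1, trivial⟩)
        (show (y', p') ∈ ball y₀ (Rs l) ×ˢ (univ : Set P2) from ⟨hl2, trivial⟩) ?_
      have e1 : tot (Fs l) (y, p) = tot F (y, p) := by
        simp only [tot, (hF2 l y hl1).1]
      have e2 : tot (Fs l) (y', p') = tot F (y', p') := by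
        simp only [tot, (hF2 l y' hl2).1]
      rw [e1, e2]
      exact he
    · rintro ⟨i⟩
      rw [(hF2 i y₀ (mem_ball_self (hpos i))).1]
      exact hF0s i
  -- the good radii are unbounded
  have hunb : ∀ B : ℝ, ∃ R, Good R ∧ B < R := by
    by_contra hcon
    push Not at hcon
    obtain ⟨B, hB⟩ := hcon
    obtain ⟨R₁, hR₁⟩ := hne
    set S : Set ℝ := {R | Good R} with hS
    have hSne : S.Nonempty := ⟨R₁, hR₁⟩
    have hSb : BddAbove S := ⟨B, fun R hR => hB R hR⟩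
    set R₀ := sSup S with hR₀
    obtain ⟨F, T, hF, hinj, hF0⟩ := glueGood S (fun R => R) (fun R => R.2)
    have hR₀pos : 0 < R₀ := lt_of_lt_of_le hR₁.1 (le_csSup hSb hR₁)
    have hU : (⋃ R : S, ball y₀ (R : ℝ)) = ball y₀ R₀ := by
      ext y
      simp only [mem_iUnion, mem_ball]
      constructor
      · rintro ⟨R, hR⟩
        exact lt_of_lt_of_le hR (le_csSup hSb R.2)
      · intro hy
        obtain ⟨R, hR, hR2⟩ := exists_lt_of_lt_csSup hSne hy
        exact ⟨⟨R, hR⟩, hR2⟩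
    rw [hU] at hF hinj
    obtain ⟨R', hR', F', T', hF', hF'2⟩ := hE D y₀ R₀ F T hR₀pos hF hinj
    have hinj' : InjOn (tot F') (ball y₀ R' ×ˢ univ) := by
      refine hI1 D y₀ R₀ R' F' T' hR₀pos hR'.le hF' ?_
      rintro ⟨y, p⟩ hy ⟨y', p'⟩ hy' he
      refine hinj hy hy' ?_
      have e1 : tot F' (y, p) = tot F (y, p) := by
        simp only [tot, (hF'2 y hy.1).1]
      have e2 : tot F' (y', p') = tot F (y', p') := by
        simp only [tot, (hF'2 y' hy'.1).1]
      rw [← e1, ← e2]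
      exact he
    have hgood : Good R' := ⟨hR₀pos.trans hR', F', T', hF', hinj', by
      rw [(hF'2 y₀ (mem_ball_self hR₀pos)).1]
      exact hF0 ⟨⟨R₁, hR₁⟩⟩⟩
    have := le_csSup hSb (show R' ∈ S from hgood)
    linarith
  choose Rs hRs hRs2 using fun n : ℕ => hunb n
  obtain ⟨F, T, hF, hinj, hF0⟩ := glueGood ℕ Rs hRs
  have hU : (⋃ n : ℕ, ball y₀ (Rs n)) = univ := by
    refine eq_univ_of_forall fun y => ?_
    obtain ⟨n, hn⟩ := exists_nat_gt (dist y y₀)
    exact mem_iUnion.2 ⟨n, lt_trans hn (hRs2 n)⟩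
  rw [hU] at hF hinj
  refine ⟨F, T, hF, ?_, hF0 ⟨0⟩⟩
  rw [← injOn_univ, ← univ_prod_univ]
  exact hinj

end Vale.Agent.P247.H690
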