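import Vale.Agent.P247.H690.AEXT.Basic

/-!
# P247, package A-EXT: continuity of the flux
-/

open scoped ContDiff Topology
open Set MeasureTheory Filter Metric

noncomputable section

namespace Vale.Agent.P247.H690

open Vale.Agent.P247.H74

variable {D : Data}

/-- `lin` as a continuous linear map -/
def linL : P2 →L[ℝ] R4 :=
  ContinuousLinearMap.pi ![0, 0, ContinuousLinearMap.fst ℝ ℝ ℝ, ContinuousLinearMap.snd ℝ ℝ ℝ]

lemma linL_apply (p : P2) : linL p = lin p := by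
  funext i
  fin_cases i <;> simp [linL, lin]

lemma lin_eq : lin = fun p => linL p := by
  funext p
  exact (linL_apply p).symm

lemma contDiff_lin : ContDiff ℝ ∞ lin := by
  rw [lin_eq]
  exact linL.contDiff

lemma contDiff_phi {f : P2 → R4} (hf : ContDiff ℝ ∞ f) : ContDiff ℝ ∞ (phi f) :=
  contDiff_lin.add hf

lemma fderiv_phi {f : P2 → R4} (hf : ContDiff ℝ ∞ f) (p : P2) :
    fderiv ℝ (phi f) p = linL + fderiv ℝ f p := by
  have h1 : HasFDerivAt lin linL p := by
    rw [lin_eq]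
    exact linL.hasFDerivAt
  have h2 : HasFDerivAt f (fderiv ℝ f p) p :=
    (hf.differentiable (by simp) p).hasFDerivAt
  exact (h1.add h2).fderiv

lemma tendsto_clm {E F : Type*} [NormedAddCommGroup E] [NormedSpace ℝ E] [NormedAddCommGroup F]
    [NormedSpace ℝ F] {L : ℕ → E →L[ℝ] F} {l : E →L[ℝ] F} {v : ℕ → E} {w : E}
    (hL : Tendsto L atTop (𝓝 l)) (hv : Tendsto v atTop (𝓝 w)) :
    Tendsto (fun n => L n (v n)) atTop (𝓝 (l w)) :=
  ((isBoundedBilinearMap_apply (𝕜 := ℝ) (E := E) (F := F)).continuous.tendsto (l, w)).comp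
    (hL.prodMk_nhds hv)

/-- the integrand of the flux -/
def fluxInt (D : Data) (f : P2 → R4) (i : Fin 4) (v : P2) (p : P2) : ℝ :=
  (D.η 0).lam (phi f p) (fderiv ℝ (phi f) p v) - (D.η 0).κ (e i) (f p)
      + (1 / 2) * (D.η 0).κ (f p) (fderiv ℝ f p v)

lemma flux_eq_mean (f : P2 → R4) :
    flux D f = (mean (fluxInt D f 2 (1, 0)), mean (fluxInt D f 3 (0, 1))) := rfl

lemma continuous_fluxInt {f : P2 → R4} (hf : ContDiff ℝ ∞ f) (i : Fin 4) (v : P2) :
    Continuous (fluxInt D f i v) := by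
  have h1 : Continuous f := hf.continuous
  have h2 : Continuous (phi f) := (contDiff_phi hf).continuous
  have h3 : Continuous (fderiv ℝ f) := hf.continuous_fderiv (by simp)
  have h4 : Continuous (fderiv ℝ (phi f)) := (contDiff_phi hf).continuous_fderiv (by simp)
  have h5 : Continuous (D.η 0).lam := (D.η 0).lam_smooth.continuous
  unfold fluxInt
  have h6 : Continuous fun p => (D.η 0).lam (phi f p) (fderiv ℝ (phi f) p v) :=
    (h5.comp h2).clm_apply (h4.clm_apply continuous_const)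
  have h7 : Continuous fun p => (D.η 0).κ (e i) (f p) := ((D.η 0).κ (e i)).continuous.comp h1
  have h8 : Continuous fun p => (D.η 0).κ (f p) (fderiv ℝ f p v) :=
    ((D.η 0).κ.continuous.comp h1).clm_apply (h3.clm_apply continuous_const)
  exact (h6.sub h7).add (continuous_const.mul h8)

lemma mean_fluxInt_tendsto {fn : ℕ → P2 → R4} {f : P2 → R4} (hf : ContDiff ℝ ∞ f)
    (hfn : ∀ n, ContDiff ℝ ∞ (fn n)) (h : TendSmooth fn f) (i : Fin 4) (v : P2) :
    Tendsto (fun n => mean (fluxInt D (fn n) i v)) atTop (𝓝 (mean (fluxInt D f i v))) := by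
  have hK : IsCompact (Icc (0 : P2) 1) := isCompact_Icc
  obtain ⟨M₀, hM₀⟩ := hK.exists_bound_of_continuousOn hf.continuous.continuousOn
  obtain ⟨M₁, hM₁⟩ := hK.exists_bound_of_continuousOn
    (hf.continuous_fderiv (by simp)).continuousOn
  obtain ⟨M₂, hM₂⟩ := hK.exists_bound_of_continuousOn contDiff_lin.continuous.continuousOn
  obtain ⟨L, hL⟩ := (isCompact_closedBall (0 : R4) (M₂ + (M₀ + 1))).exists_bound_of_continuousOn
    (D.η 0).lam_smooth.continuous.continuousOn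
  have h0 := TendSmooth.tendsto_fun h
  have h1 := TendSmooth.tendsto_fderiv h
  have h0p : ∀ p, Tendsto (fun n => fn n p) atTop (𝓝 (f p)) := fun p =>
    h0.tendsto_at p
  have h1p : ∀ p, Tendsto (fun n => fderiv ℝ (fn n) p) atTop (𝓝 (fderiv ℝ f p)) := fun p =>
    h1.tendsto_at p
  refine tendsto_integral_filter_of_dominated_convergence
    (fun _ => L * ((‖linL‖ + (M₁ + 1)) * ‖v‖) + ‖(D.η 0).κ (e i)‖ * (M₀ + 1)
      + 1 / 2 * (‖(D.η 0).κ‖ * (M₀ + 1) * ((M₁ + 1) * ‖v‖))) ?_ ?_ ?_ ?_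
  · exact Eventually.of_forall fun n =>
      (continuous_fluxInt (hfn n) i v).aestronglyMeasurable
  · rw [Metric.tendstoUniformly_iff] at h0 h1
    filter_upwards [h0 1 one_pos, h1 1 one_pos] with n hn0 hn1
    refine (ae_restrict_iff' measurableSet_Icc).2 (Eventually.of_forall fun p hp => ?_)
    have b0 : ‖fn n p‖ ≤ M₀ + 1 := by
      have := hn0 p
      rw [dist_comm, dist_eq_norm] at this
      calc ‖fn n p‖ = ‖f p + (fn n p - f p)‖ := by congr 1; abel
        _ ≤ ‖f p‖ + ‖fn n p - f p‖ := norm_add_le _ _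
        _ ≤ M₀ + 1 := add_le_add (hM₀ p hp) this.le
    have b1 : ‖fderiv ℝ (fn n) p‖ ≤ M₁ + 1 := by
      have := hn1 p
      rw [dist_comm, dist_eq_norm] at this
      calc ‖fderiv ℝ (fn n) p‖ = ‖fderiv ℝ f p + (fderiv ℝ (fn n) p - fderiv ℝ f p)‖ := by
            congr 1; abel
        _ ≤ ‖fderiv ℝ f p‖ + ‖fderiv ℝ (fn n) p - fderiv ℝ f p‖ := norm_add_le _ _
        _ ≤ M₁ + 1 := add_le_add (hM₁ p hp) this.le
    have b2 : ‖phi (fn n) p‖ ≤ M₂ + (M₀ + 1) :=
      (norm_add_le _ _).trans (add_le_add (hM₂ p hp) b0)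
    have b3 : ‖(D.η 0).lam (phi (fn n) p)‖ ≤ L := hL _ (mem_closedBall_zero_iff.2 b2)
    have b4 : ‖fderiv ℝ (phi (fn n)) p v‖ ≤ (‖linL‖ + (M₁ + 1)) * ‖v‖ := by
      rw [fderiv_phi (hfn n)]
      exact ((linL + fderiv ℝ (fn n) p).le_opNorm v).trans
        (mul_le_mul_of_nonneg_right ((norm_add_le _ _).trans (add_le_add le_rfl b1))
          (norm_nonneg _))
    have b5 : ‖fderiv ℝ (fn n) p v‖ ≤ (M₁ + 1) * ‖v‖ :=
      ((fderiv ℝ (fn n) p).le_opNorm v).trans (mul_le_mul_of_nonneg_right b1 (norm_nonneg _))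
    have hM0 : 0 ≤ M₀ + 1 := (norm_nonneg _).trans b0
    have hL0 : 0 ≤ L := (norm_nonneg _).trans b3
    have c1 : ‖(D.η 0).lam (phi (fn n) p) (fderiv ℝ (phi (fn n)) p v)‖
        ≤ L * ((‖linL‖ + (M₁ + 1)) * ‖v‖) :=
      (ContinuousLinearMap.le_opNorm _ _).trans (mul_le_mul b3 b4 (norm_nonneg _) hL0)
    have c2 : ‖(D.η 0).κ (e i) (fn n p)‖ ≤ ‖(D.η 0).κ (e i)‖ * (M₀ + 1) :=
      (ContinuousLinearMap.le_opNorm _ _).trans
        (mul_le_mul_of_nonneg_left b0 (norm_nonneg _))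
    have c3 : ‖(D.η 0).κ (fn n p) (fderiv ℝ (fn n) p v)‖
        ≤ ‖(D.η 0).κ‖ * (M₀ + 1) * ((M₁ + 1) * ‖v‖) :=
      (ContinuousLinearMap.le_opNorm _ _).trans (mul_le_mul
        ((ContinuousLinearMap.le_opNorm _ _).trans (mul_le_mul_of_nonneg_left b0 (norm_nonneg _)))
        b5 (norm_nonneg _) (by positivity))
    unfold fluxInt
    refine (norm_add_le _ _).trans (add_le_add ((norm_sub_le _ _).trans (add_le_add c1 c2)) ?_)
    rw [norm_mul]
    refine mul_le_mul ?_ c3 (norm_nonneg _) (by norm_num)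
    norm_num
  · exact integrableOn_const hK.measure_lt_top.ne
  · refine Eventually.of_forall fun p => ?_
    have t1 : Tendsto (fun n => phi (fn n) p) atTop (𝓝 (phi f p)) :=
      tendsto_const_nhds.add (h0p p)
    have t2 : Tendsto (fun n => fderiv ℝ (fn n) p v) atTop (𝓝 (fderiv ℝ f p v)) :=
      tendsto_clm (h1p p) tendsto_const_nhds
    have t3 : Tendsto (fun n => fderiv ℝ (phi (fn n)) p v) atTop (𝓝 (fderiv ℝ (phi f) p v)) := by
      have e1 : (fun n => fderiv ℝ (phi (fn n)) p v) = fun n => linL v + fderiv ℝ (fn n) p v := by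
        funext n
        rw [fderiv_phi (hfn n)]
        rfl
      rw [e1, fderiv_phi hf]
      exact tendsto_const_nhds.add t2
    have t4 : Tendsto (fun n => (D.η 0).lam (phi (fn n) p)) atTop (𝓝 ((D.η 0).lam (phi f p))) :=
      ((D.η 0).lam_smooth.continuous.tendsto _).comp t1
    have t5 : Tendsto (fun n => (D.η 0).κ (e i) (fn n p)) atTop (𝓝 ((D.η 0).κ (e i) (f p))) :=
      (((D.η 0).κ (e i)).continuous.tendsto _).comp (h0p p)
    have t6 : Tendsto (fun n => (D.η 0).κ (fn n p)) atTop (𝓝 ((D.η 0).κ (f p))) :=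
      ((D.η 0).κ.continuous.tendsto _).comp (h0p p)
    exact ((tendsto_clm t4 t3).sub t5).add ((tendsto_clm t6 t2).const_mul _)

/-- the flux is continuous for `C^∞` convergence -/
lemma flux_tendsto {fn : ℕ → P2 → R4} {f : P2 → R4} (hf : ContDiff ℝ ∞ f)
    (hfn : ∀ n, ContDiff ℝ ∞ (fn n)) (h : TendSmooth fn f) :
    Tendsto (fun n => flux D (fn n)) atTop (𝓝 (flux D f)) := by
  have := (mean_fluxInt_tendsto (D := D) hf hfn h 2 (1, 0)).prodMk_nhds
    (mean_fluxInt_tendsto (D := D) hf hfn h 3 (0, 1))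
  exact this

end Vale.Agent.P247.H690
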