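import Vale.Agent.P247.H690.AEXT.Flux

/-!
# P247, package A-EXT: uniqueness and gluing of families
-/

open scoped ContDiff Topology
open Set MeasureTheory Filter Metric

noncomputable section

namespace Vale.Agent.P247.H690

open Vale.Agent.P247.H74

variable {D : Data}

lemma Fam.tendsto_modulus {U : Set P2} (hU : IsOpen U) {F : P2 → P2 → R4} {T : P2 → ℂ}
    (h : Fam D U F T) {y : P2} (hy : y ∈ U) {yn : ℕ → P2} (hyn : Tendsto yn atTop (𝓝 y)) :
    Tendsto (fun n => T (yn n)) atTop (𝓝 (T y)) :=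
  ((h.smoothT.continuousOn.continuousAt (hU.mem_nhds hy)).tendsto).comp hyn

/-- uniqueness of families, from the local statement -/
theorem UNI (hK3 : K3_statement) : UNI_statement := by
  intro D U F F' T T' hU hUc h h' hex
  obtain ⟨y₀, hy₀, h₀⟩ := hex
  have hT : ∀ y ∈ U, F y = F' y → T y = T' y := fun y hy he => by
    have := h'.jt y hy
    rw [← he] at this
    exact modulus_unique (h.jt y hy) this (h.imm y hy)
  set A : Set P2 := {y | y ∈ U ∧ F y = F' y} with hA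
  have hAo : IsOpen A := by
    rw [isOpen_iff_mem_nhds]
    intro y hy
    by_contra hn
    have hfr : ∃ᶠ x in 𝓝 y, x ∉ A := by
      intro hh
      refine hn ?_
      filter_upwards [hh] with x hx
      exact not_not.1 hx
    have hfr2 : ∃ᶠ x in 𝓝 y, x ∉ A ∧ x ∈ U := hfr.and_eventually (hU.mem_nhds hy.1)
    obtain ⟨yn, hyn, hyn2⟩ := exists_seq_forall_of_frequently hfr2
    obtain ⟨ε, hε, Fk, Tk, -, -, -, hseq⟩ := hK3 D (F y) (T y) (h.jt y hy.1) (h.cen y hy.1)
      (h.imm y hy.1)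
    have s1 := hseq (fun n => F (yn n)) (fun n => T (yn n)) (fun n => h.jt _ (hyn2 n).2)
      (fun n => h.cen _ (hyn2 n).2) (Fam.tendSmooth hU h hy.1 hyn)
      (Fam.tendsto_modulus hU h hy.1 hyn)
    have s2 := hseq (fun n => F' (yn n)) (fun n => T' (yn n)) (fun n => h'.jt _ (hyn2 n).2)
      (fun n => h'.cen _ (hyn2 n).2) (by
        rw [hy.2]
        exact Fam.tendSmooth hU h' hy.1 hyn) (by
        rw [hT y hy.1 hy.2]
        exact Fam.tendsto_modulus hU h' hy.1 hyn)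
    obtain ⟨n, hn1, hn2⟩ := (s1.and s2).exists
    refine (hyn2 n).1 ⟨(hyn2 n).2, ?_⟩
    rw [h.flux_eq _ (hyn2 n).2] at hn1
    rw [h'.flux_eq _ (hyn2 n).2] at hn2
    exact hn1.2.1.trans hn2.2.1.symm
  have hsub : U ⊆ A := by
    refine hUc.subset_of_closure_inter_subset hAo ⟨y₀, hy₀, hy₀, h₀⟩ ?_
    rintro y ⟨hyc, hyU⟩
    obtain ⟨yn, hyn, hyn2⟩ := mem_closure_iff_seq_limit.1 hyc
    refine ⟨hyU, ?_⟩
    funext p
    have t1 := (TendSmooth.tendsto_fun (Fam.tendSmooth hU h hyU hyn2)).tendsto_at p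
    have t2 := (TendSmooth.tendsto_fun (Fam.tendSmooth hU h' hyU hyn2)).tendsto_at p
    have e1 : (fun n => F (yn n) p) = fun n => F' (yn n) p := by
      funext n
      rw [(hyn n).2]
    rw [e1] at t1
    exact tendsto_nhds_unique t1 t2
  intro y hy
  exact ⟨(hsub hy).2, hT y hy (hsub hy).2⟩

/-- restriction of a family -/
lemma Fam.mono {U V : Set P2} {F : P2 → P2 → R4} {T : P2 → ℂ} (h : Fam D U F T) (hV : V ⊆ U) :
    Fam D V F T where
  smooth := h.smooth.mono (prod_mono_left hV)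
  smoothT := h.smoothT.mono hV
  jt y hy := h.jt y (hV hy)
  cen y hy := h.cen y (hV hy)
  flux_eq y hy := h.flux_eq y (hV hy)
  imm y hy := h.imm y (hV hy)

/-- gluing of families -/
lemma Fam.glue {ι : Type*} (Us : ι → Set P2) (hUs : ∀ i, IsOpen (Us i)) (Fs : ι → P2 → P2 → R4)
    (Ts : ι → P2 → ℂ) (hF : ∀ i, Fam D (Us i) (Fs i) (Ts i))
    (hag : ∀ i j y, y ∈ Us i → y ∈ Us j → Fs i y = Fs j y ∧ Ts i y = Ts j y) :
    ∃ (F : P2 → P2 → R4) (T : P2 → ℂ), Fam D (⋃ i, Us i) F T ∧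
      ∀ i, ∀ y ∈ Us i, F y = Fs i y ∧ T y = Ts i y := by
  classical
  let F : P2 → P2 → R4 := fun y => if h : ∃ i, y ∈ Us i then Fs h.choose y else 0
  let T : P2 → ℂ := fun y => if h : ∃ i, y ∈ Us i then Ts h.choose y else 0
  have key : ∀ i, ∀ y ∈ Us i, F y = Fs i y ∧ T y = Ts i y := by
    intro i y hy
    have hex : ∃ i, y ∈ Us i := ⟨i, hy⟩
    have := hag hex.choose i y hex.choose_spec hy
    simp only [F, T, dif_pos hex]
    exact this
  refine ⟨F, T, ⟨?_, ?_, ?_, ?_, ?_, ?_⟩, key⟩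
  · rintro ⟨y, p⟩ hq
    obtain ⟨i, hi⟩ := mem_iUnion.1 hq.1
    have hn : Us i ×ˢ (univ : Set P2) ∈ 𝓝 (y, p) :=
      ((hUs i).prod isOpen_univ).mem_nhds ⟨hi, trivial⟩
    have h1 : ContDiffAt ℝ ∞ (fun q : P2 × P2 => Fs i q.1 q.2) (y, p) :=
      (hF i).smooth.contDiffAt hn
    refine (h1.congr_of_eventuallyEq ?_).contDiffWithinAt
    filter_upwards [hn] with q hq2
    rw [(key i q.1 hq2.1).1]
  · intro y hy
    obtain ⟨i, hi⟩ := mem_iUnion.1 hy
    have hn : Us i ∈ 𝓝 y := (hUs i).mem_nhds hi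
    have h1 : ContDiffAt ℝ ∞ (Ts i) y := (hF i).smoothT.contDiffAt hn
    refine (h1.congr_of_eventuallyEq ?_).contDiffWithinAt
    filter_upwards [hn] with z hz
    rw [(key i z hz).2]
  · intro y hy
    obtain ⟨i, hi⟩ := mem_iUnion.1 hy
    rw [(key i y hi).1, (key i y hi).2]
    exact (hF i).jt y hi
  · intro y hy
    obtain ⟨i, hi⟩ := mem_iUnion.1 hy
    rw [(key i y hi).1]
    exact (hF i).cen y hi
  · intro y hy
    obtain ⟨i, hi⟩ := mem_iUnion.1 hy
    rw [(key i y hi).1]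
    exact (hF i).flux_eq y hi
  · intro y hy
    obtain ⟨i, hi⟩ := mem_iUnion.1 hy
    rw [(key i y hi).1]
    exact (hF i).imm y hi

/-! ## the total map of a family is open -/

lemma tot_map_nhds (hDP : DPsi_statement) {U : Set P2} (hU : IsOpen U) {F : P2 → P2 → R4}
    {T : P2 → ℂ} (h : Fam D U F T) {y : P2} (hy : y ∈ U) (p : P2) :
    map (tot F) (𝓝 (y, p)) = 𝓝 (tot F (y, p)) := by
  have hn : U ×ˢ (univ : Set P2) ∈ 𝓝 (y, p) := (hU.prod isOpen_univ).mem_nhds ⟨hy, trivial⟩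
  have h1 : ContDiffAt ℝ ∞ (tot F) (y, p) := by
    have h2 : ContDiffAt ℝ ∞ (fun q : P2 × P2 => F q.1 q.2) (y, p) := h.smooth.contDiffAt hn
    have h3 : ContDiffAt ℝ ∞ (fun q : P2 × P2 => lin q.2) (y, p) :=
      (contDiff_lin.comp contDiff_snd).contDiffAt
    exact h3.add h2
  have h2 : HasStrictFDerivAt (tot F) (fderiv ℝ (tot F) (y, p)) (y, p) :=
    h1.hasStrictFDerivAt (by simp)
  refine h2.map_nhds_eq_of_surj ?_
  have hinj := hDP D U F T hU h y hy p
  have hfr : Module.finrank ℝ (P2 × P2) = Module.finrank ℝ R4 := by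
    simp [Module.finrank_prod, R4, P2]
  have := (LinearMap.injective_iff_surjective_of_finrank_eq_finrank
    (f := (fderiv ℝ (tot F) (y, p)).toLinearMap) hfr).1 hinj
  exact LinearMap.range_eq_top.2 this

end Vale.Agent.P247.H690
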